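import Vale.Agent.P330.H241.Classes

/-!
# P330: a class of gates, and the measure of difficulty of a generalized circuit
-/

namespace Vale.Agent.P330.R2.H142

open Vale.Agent.P330

/-- Constant, Scale, Add and Subtract gates. -/
def isConstArith : Gate → Bool
  | .const _ _ => true
  | .scale _ _ _ => true
  | .add _ _ _ => true
  | .sub _ _ _ => true
  | _ => false

/-- The smallest of five numbers: of the Constant and Not gates; of the Scale, Add, Subtract and
Less gates; of the Subtract, Less and Not gates; of the backward gates (an input node is not smaller
than the output node); of the Constant, Scale, Add and Subtract gates. -/
def rest (G : GenCircuit) : ℕ := min G.bad (G.count isConstArith)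

end Vale.Agent.P330.R2.H142
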