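import Vale.Agent.P330.H241.Main
import Vale.Agent.P330.R2.H142.Defs

/-!
# P330: the limits of the constants of the PCP-for-PPAD conjecture
-/

namespace Vale.Agent.P330.R2.H142

open Vale.Agent.Lib.PolyTime Vale.Agent.P330

/-! ### The code of an instance of End-of-Line is injective -/

theorem bgateW_inj {g g' : BGate} (h : bgateW g = bgateW g') : g = g' := by
  cases g <;> cases g' <;> simp only [bgateW] at h <;> obtain ⟨h1, h2⟩ := pairW_inj h <;>
    obtain ⟨h3, h4⟩ := pairW_inj h2 <;> have h1 := bits_inj h1 <;> have h3 := bits_inj h3 <;>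
    have h4 := bits_inj h4 <;> first
      | (exfalso; omega)
      | (subst_vars; rfl)

theorem boolCircuitW_inj {C C' : BoolCircuit} (h : boolCircuitW C = boolCircuitW C') : C = C' := by
  unfold boolCircuitW at h
  obtain ⟨h1, h2⟩ := pairW_inj h
  have h3 := listW_inj (fun a b => bgateW_inj) h1
  have h4 := listW_inj (fun a b => bits_inj) h2
  cases C
  cases C'
  simp only at h3 h4
  subst h3 h4
  rfl

theorem eolW_inj {I I' : EndOfLine} (h : eolW I = eolW I') : I = I' := by
  unfold eolW at h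
  obtain ⟨h1, h2⟩ := pairW_inj h
  obtain ⟨h3, h4⟩ := pairW_inj h2
  have k1 := bits_inj h1
  have k3 := boolCircuitW_inj h3
  have k4 := boolCircuitW_inj h4
  clear h h1 h2 h3 h4
  cases I
  cases I'
  simp only at k1 k3 k4
  subst k1 k3 k4
  rfl

/-! ### Reductions whose circuits are easy for all long instances -/

theorem inFP_of_long {ε δ : ℝ} {p : Polynomial ℕ} {R : EndOfLine → GenCircuit}
    {D : EndOfLine × List ℚ → List Bool} (h : IsReduction ε δ p R D) {F : GenCircuit → List ℚ}
    (hF : PT ∅ F) {m : ℕ}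
    (hacc : ∀ I, m ≤ (eolW I).length → Acceptable ε δ p (R I) (F (R I))) : EndOfLineInFP := by
  classical
  obtain ⟨hR, hD, hI⟩ := h
  obtain ⟨gR, hR1, hR2⟩ := polyTime_iff.1 hR
  obtain ⟨gD, hD1, hD2⟩ := polyTime_iff.1 hD
  obtain ⟨gF, hF1, hF2⟩ := hF
  have hsol : ∀ I : EndOfLine, ∃ v, I.IsSolution v := fun I =>
    ⟨_, (hI I).2 _ (hI I).1.choose_spec⟩
  let t : Word → Word := fun w =>
    if h : ∃ I : EndOfLine, eolW I = w then (hsol h.choose).choose else []
  have ht : ∀ I : EndOfLine, I.IsSolution (t (eolW I)) := by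
    intro I
    have h3 : ∃ I' : EndOfLine, eolW I' = eolW I := ⟨I, rfl⟩
    have h4 : h3.choose = I := eolW_inj h3.choose_spec
    have h5 := (hsol h3.choose).choose_spec
    simp only [t]
    rw [dif_pos h3]
    rw [h4] at h5 ⊢
    exact h5
  refine ⟨fun I => if (eolW I).length < m then t (eolW I) else D (I, F (R I)),
    polyTime_iff.2 ⟨_, FP_patch m t _ (hD1.comp (FP.id.pair (hF1.comp hR1))), fun I => ?_⟩,
    fun I => ?_⟩
  · show (if (eolW I).length < m then t (eolW I) else gD (pr (eolW I) (gF (gR (eolW I))))) =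
      if (eolW I).length < m then t (eolW I) else D (I, F (R I))
    split_ifs with h
    · rfl
    · have h1 : gF (gR (eolW I)) = listW ratW (F (R I)) := by
        rw [hR2]
        have h3 := hF2 (R I)
        rw [enc_listRat] at h3
        exact h3
      rw [h1, pr_eq_pairW]
      exact hD2 (I, F (R I))
  · show I.IsSolution (if (eolW I).length < m then t (eolW I) else D (I, F (R I)))
    split_ifs with h
    · exact ht I
    · exact (hI I).2 _ (hacc I (not_lt.1 h))

/-! ### The fifth assignment -/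

theorem PT_isConstArith {A : Set Word} {α : Type*} [Enc α] {g : α → Gate} (hg : PT A g) :
    PT A (fun a => isConstArith (g a)) :=
  PT_gateCase (F := fun g _ => isConstArith g) hg (f0 := fun _ _ _ _ _ => true)
    (f1 := fun _ _ _ _ _ => true) (f2 := fun _ _ _ _ => false) (f3 := fun _ _ _ _ => true)
    (f4 := fun _ _ _ _ => true) (f5 := fun _ _ _ _ => false) (f6 := fun _ _ _ _ => false)
    (f7 := fun _ _ _ _ => false) (f8 := fun _ _ _ _ => false)
    (PT.const _) (PT.const _) (PT.const _) (PT.const _) (PT.const _) (PT.const _) (PT.const _)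
    (PT.const _) (PT.const _) (fun _ _ _ => rfl) (fun _ _ _ _ => rfl) (fun _ _ _ => rfl)
    (fun _ _ _ _ => rfl) (fun _ _ _ _ => rfl) (fun _ _ _ _ => rfl) (fun _ _ _ => rfl)
    (fun _ _ _ _ => rfl) (fun _ _ _ _ => rfl)

theorem sat_mid {ε : ℝ} (h0 : 0 < ε) (h1 : ε < 1 / 2) (G : GenCircuit) :
    ∀ g ∈ G.gates, isConstArith g = false →
      g.Sat ε (val (List.replicate G.nodes (1 / 2))) := by
  have hv : ∀ i < G.nodes, val (List.replicate G.nodes (1 / 2)) i = 1 / 2 := by
    intro i hi
    unfold val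
    rw [List.getD_eq_getElem _ _ (by simpa using hi)]
    simp
  intro g hg hm
  have ho := hv _ (G.out_lt g hg)
  have hi : ∀ a ∈ g.ins, val (List.replicate G.nodes (1 / 2)) a = 1 / 2 :=
    fun a ha => hv a (G.ins_lt g hg a ha)
  cases g with
  | const α z => simp [isConstArith] at hm
  | scale α a z => simp [isConstArith] at hm
  | copy a z =>
    have ha := hi a (by simp [Gate.ins])
    simp only [Gate.Sat, Gate.out] at ho ⊢
    rw [ho, ha, sub_self, abs_zero]
    exact h0.le
  | add a b z => simp [isConstArith] at hm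
  | sub a b z => simp [isConstArith] at hm
  | less a b z =>
    have ha := hi a (by simp [Gate.ins])
    have hb := hi b (by simp [Gate.ins])
    simp only [Gate.Sat, Gate.out] at ho ⊢
    rw [ho, ha, hb]
    constructor <;> intro h <;> linarith
  | not a z =>
    have ha := hi a (by simp [Gate.ins])
    simp only [Gate.Sat, Gate.out] at ho ⊢
    rw [ho, ha]
    constructor <;> intro h <;> linarith
  | or a b z =>
    have ha := hi a (by simp [Gate.ins])
    have hb := hi b (by simp [Gate.ins])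
    simp only [Gate.Sat, Gate.out] at ho ⊢
    rw [ho, ha, hb]
    constructor
    · rintro (h | h) <;> linarith
    · rintro ⟨h, -⟩
      linarith
  | and a b z =>
    have ha := hi a (by simp [Gate.ins])
    have hb := hi b (by simp [Gate.ins])
    simp only [Gate.Sat, Gate.out] at ho ⊢
    rw [ho, ha, hb]
    constructor
    · rintro ⟨h, -⟩
      linarith
    · rintro (h | h) <;> linarith

theorem two_mul_rest_le (G : GenCircuit) : 2 * rest G ≤ G.gates.length :=
  (Nat.mul_le_mul_left 2 (min_le_left _ _)).trans (two_mul_bad_le G)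

/-- The algorithm. -/
theorem exists_alg5 {ε : ℝ} (h0 : 0 < ε) : ∃ (C : ℕ) (F : GenCircuit → List ℚ), 6 ≤ C ∧ PT ∅ F ∧
    ∀ G : GenCircuit, IsAssignment G (F G) ∧
      (listW ratW (F G)).length ≤ C * (circuitW G).length ∧
      (1 / 5 ≤ ε → ∀ g ∈ G.gates, g.Sat ε (val (F G))) ∧
      G.gates.length ≤ numSat ε G (F G) + rest G := by
  obtain ⟨C, F, hC, hF, h⟩ := exists_alg h0
  by_cases h5 : 1 / 5 ≤ ε
  · refine ⟨C, F, hC, hF, fun G => ⟨(h G).1, (h G).2.1, (h G).2.2.1, ?_⟩⟩
    exact (le_numSat_of_all ((h G).2.2.1 h5)).trans (Nat.le_add_right _ _)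
  · push Not at h5
    obtain ⟨B, hB⟩ := exists_bound (fun _ => 1 / 2) 0
    have hPT : PT ∅ (fun G : GenCircuit =>
        if min G.bad (G.count isConstArith) = G.bad then F G
          else List.replicate G.nodes (1 / 2)) :=
      PT.ite (PT.eqNat (PT.min PT_bad (PT_count (PT_isConstArith PT.id))) PT_bad) hF
        (PT_constAssign _)
    refine ⟨C + (2 * B + 1), _, by omega, hPT, fun G => ?_⟩
    obtain ⟨k1, k2, -, k4⟩ := h G
    by_cases hG : min G.bad (G.count isConstArith) = G.bad
    · simp only [if_pos hG]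
      refine ⟨k1, k2.trans (Nat.mul_le_mul_right _ (by omega)), fun h => absurd h (not_le.2 h5),
        ?_⟩
      unfold rest
      rw [hG]
      exact k4
    · simp only [if_neg hG]
      refine ⟨⟨List.length_replicate, fun r hr => ?_⟩, ?_, fun h => absurd h (not_le.2 h5), ?_⟩
      · rw [List.eq_of_mem_replicate hr]
        norm_num
      · refine (code_le (G := G) (B := B) List.length_replicate fun r hr => ?_).trans
          (Nat.mul_le_mul_right _ (by omega))
        rw [List.eq_of_mem_replicate hr]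
        exact hB 0 le_rfl
      · have h6 : rest G = G.count isConstArith := by
          unfold rest
          omega
        rw [h6]
        exact le_numSat (sat_mid h0 (by linarith) G)

/-- The main argument. -/
theorem main {ε δ : ℝ} (h0 : 0 < ε) {p : Polynomial ℕ} (hp : 2 ≤ p.natDegree)
    {R : EndOfLine → GenCircuit} {D : EndOfLine × List ℚ → List Bool}
    (h : IsReduction ε δ p R D) (hδ : 0 ≤ δ) {m : ℕ}
    (hg : ∀ I, m ≤ (eolW I).length → 1 / 5 ≤ ε ∨ (rest (R I) : ℝ) ≤ δ * (R I).gates.length) :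
    EndOfLineInFP := by
  obtain ⟨C, F, -, hF, hF2⟩ := exists_alg5 h0
  obtain ⟨F', hF', hF''⟩ := exists_solver (ε := ε) (δ := δ) (p := p) (C := C) hF
    (fun G => (hF2 G).1) (fun G => (hF2 G).2.1) (eventually_of_degree hp C)
  refine inFP_of_long h hF' (m := m) fun I hI => hF'' (R I) (h.2.2 I).1 ?_
  obtain ⟨-, -, h5, hb⟩ := hF2 (R I)
  have hb' : ((R I).gates.length : ℝ) ≤ numSat ε (R I) (F (R I)) + rest (R I) := by
    exact_mod_cast hb
  rcases hg I hI with h6 | h6
  · have h7 : ((R I).gates.length : ℝ) ≤ numSat ε (R I) (F (R I)) := by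
      exact_mod_cast le_numSat_of_all (h5 h6)
    have h8 : (0 : ℝ) ≤ (R I).gates.length := Nat.cast_nonneg _
    nlinarith
  · linarith

/-- `ε ≥ 1/5` or `δ ≥ 1/2`: the conjecture is equivalent to `End-of-Line ∈ FP`. -/
theorem equiv {ε δ : ℝ} (h0 : 0 < ε) (hδ : 0 < δ) (h : 1 / 5 ≤ ε ∨ 1 / 2 ≤ δ) {p : Polynomial ℕ}
    (hp : 2 ≤ p.natDegree) :
    (PolySizePCP ε δ p ↔ EndOfLineInFP) ∧ (PCPforPPAD ε δ p ↔ EndOfLineInFP) := by
  have k1 : PolySizePCP ε δ p → EndOfLineInFP := by
    rintro ⟨R, D, hR⟩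
    refine main h0 hp hR hδ.le (m := 0) fun I _ => ?_
    rcases h with h | h
    · exact Or.inl h
    · right
      have h1 : (2 * rest (R I) : ℝ) ≤ (R I).gates.length := by
        exact_mod_cast two_mul_rest_le (R I)
      have h2 : (0 : ℝ) ≤ (R I).gates.length := Nat.cast_nonneg _
      nlinarith
  obtain ⟨C, F, hC, -, -⟩ := exists_alg h0
  have k2 : EndOfLineInFP → PCPforPPAD ε δ p :=
    reduction_of_inFP h0 hδ hC (eventually_of_degree hp C)
  have k3 : PCPforPPAD ε δ p → PolySizePCP ε δ p := by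
    rintro ⟨R, D, hR, -⟩
    exact ⟨R, D, hR⟩
  exact ⟨⟨k1, fun h => k3 (k2 h)⟩, ⟨fun h => k1 (k3 h), k2⟩⟩

/-- The algorithm. -/
theorem alg {ε : ℝ} (h0 : 0 < ε) : ∃ (C : ℕ) (F : GenCircuit → List ℚ),
    PolyTime circuitW (listW ratW) F ∧ ∀ G : GenCircuit, IsAssignment G (F G) ∧
      (listW ratW (F G)).length ≤ C * (circuitW G).length ∧
      (1 / 5 ≤ ε → ∀ g ∈ G.gates, g.Sat ε (val (F G))) ∧
      G.gates.length ≤ 2 * numSat ε G (F G) ∧
      G.gates.length ≤ numSat ε G (F G) + rest G := by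
  obtain ⟨C, F, -, hF, hF2⟩ := exists_alg5 h0
  refine ⟨C, F, polyTime_of_PT hF (fun _ => rfl) enc_listRat, fun G => ?_⟩
  obtain ⟨h1, h2, h3, h4⟩ := hF2 G
  have := two_mul_rest_le G
  exact ⟨h1, h2, h3, by omega, h4⟩

end Vale.Agent.P330.R2.H142
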